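import Vale.Agent.P237.Quant.TailData.N37.tailN37N0Part0
import Vale.Agent.P237.Quant.TailData.N37.tailN37N0Part1
import Vale.Agent.P237.Quant.TailData.N37.tailN37N0Part2
import Vale.Agent.P237.Quant.TailData.N37.tailN37N0Part3
import Vale.Agent.P237.Quant.TailData.N37.tailN37N0Part4
import Vale.Agent.P237.Quant.TailData.N37.tailN37N0Part5
import Vale.Agent.P237.Quant.TailData.N37.tailN37N0Part6
import Vale.Agent.P237.Quant.TailData.N37.tailN37N0Part7
import Vale.Agent.P237.Quant.TailData.N37.tailN37N0Part8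

/-!
Tail calibration tailN37N0 in dimension 37. The check. Generated data, checked by the kernel.
-/

set_option maxRecDepth 100000
set_option linter.all false

namespace Vale.Agent.P237.Quant.TailData

open TailCert


/-- The calibration. -/
noncomputable def tailN37N0 : Cfg :=
  tailN37N0Base.withIvals (List.flatten [tailN37N0L0, tailN37N0L1, tailN37N0L2, tailN37N0L3, tailN37N0L4, tailN37N0L5, tailN37N0L6, tailN37N0L7, tailN37N0L8, tailN37N0L9, tailN37N0L10, tailN37N0L11, tailN37N0L12, tailN37N0L13, tailN37N0L14, tailN37N0L15, tailN37N0L16, tailN37N0L17, tailN37N0L18, tailN37N0L19, tailN37N0L20, tailN37N0L21, tailN37N0L22, tailN37N0L23, tailN37N0L24, tailN37N0L25, tailN37N0L26, tailN37N0L27, tailN37N0L28, tailN37N0L29, tailN37N0L30, tailN37N0L31, tailN37N0L32])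

theorem tailN37N0_parts : [tailN37N0L0, tailN37N0L1, tailN37N0L2, tailN37N0L3, tailN37N0L4, tailN37N0L5, tailN37N0L6, tailN37N0L7, tailN37N0L8, tailN37N0L9, tailN37N0L10, tailN37N0L11, tailN37N0L12, tailN37N0L13, tailN37N0L14, tailN37N0L15, tailN37N0L16, tailN37N0L17, tailN37N0L18, tailN37N0L19, tailN37N0L20, tailN37N0L21, tailN37N0L22, tailN37N0L23, tailN37N0L24, tailN37N0L25, tailN37N0L26, tailN37N0L27, tailN37N0L28, tailN37N0L29, tailN37N0L30, tailN37N0L31, tailN37N0L32].Forall fun l => tailN37N0Base.partUsed tailN37N0Used l = true := by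
  simp only [List.forall_cons, List.Forall]
  exact ⟨tailN37N0L0_ok, tailN37N0L1_ok, tailN37N0L2_ok, tailN37N0L3_ok, tailN37N0L4_ok, tailN37N0L5_ok, tailN37N0L6_ok, tailN37N0L7_ok, tailN37N0L8_ok, tailN37N0L9_ok, tailN37N0L10_ok, tailN37N0L11_ok, tailN37N0L12_ok, tailN37N0L13_ok, tailN37N0L14_ok, tailN37N0L15_ok, tailN37N0L16_ok, tailN37N0L17_ok, tailN37N0L18_ok, tailN37N0L19_ok, tailN37N0L20_ok, tailN37N0L21_ok, tailN37N0L22_ok, tailN37N0L23_ok, tailN37N0L24_ok, tailN37N0L25_ok, tailN37N0L26_ok, tailN37N0L27_ok, tailN37N0L28_ok, tailN37N0L29_ok, tailN37N0L30_ok, tailN37N0L31_ok, tailN37N0L32_ok⟩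

theorem tailN37N0_check : tailN37N0.check = true :=
  Cfg.check_of_parts (by decide +kernel) tailN37N0_parts

end Vale.Agent.P237.Quant.TailData
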